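import Vale.Agent.P113.Main

/-!
P113: halting detection by particle trajectories of forced Navier–Stokes flows from rest.
-/

namespace Vale.Agent.Results.P113.ForcedNSHalting

open Vale.Agent.P113

theorem result :
    ∃ (a lo hi : Fin 3 → ℚ) (C : Machine × List ℕ → ForceCode),
      (∀ i, lo i < hi i) ∧ IsForceCompiler C ∧ ∀ ν : ℝ, 0 < ν → Detects ν a lo hi C :=
  ⟨0, boxLo, boxHi, compiler, fun i => by fin_cases i <;> norm_num [boxLo, boxHi],
    compiler_isForceCompiler, fun _ hν => compiler_detects hν⟩

end Vale.Agent.Results.P113.ForcedNSHalting
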